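import Vale.Agent.P211.Cert.Pair.Data.HessOuterL.Base

/-!
P211, data: the root `outerL` of the Hessian weight, generated from the exact search.
-/

namespace Vale.Agent.P211.Cert.Pair.HessOuterL

open Vale.Agent.P098.Check6 (Face St ofChunks reach)
open Vale.Agent.P098.Cert6.Kron (RootPar)

/-- A subtree. -/
def tree0 : Check.Tree (Option ℕ) :=
  .leaf none

theorem chunk0 : Check.GoodSign cfg (reach cfg base [(0, false)]) :=
  Check.checkSign_sound tree0 (by decide +kernel)

/-- A subtree. -/
def tree1 : Check.Tree (Option ℕ) :=
  .node 3
    (.leaf none)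
    (.leaf none)

theorem chunk1 : Check.GoodSign cfg (reach cfg base [(1, false), (0, true)]) :=
  Check.checkSign_sound tree1 (by decide +kernel)

/-- A subtree. -/
def tree2 : Check.Tree (Option ℕ) :=
  .leaf none

theorem chunk2 : Check.GoodSign cfg (reach cfg base [(0, false), (3, false), (1, true), (0, true)]) :=
  Check.checkSign_sound tree2 (by decide +kernel)

/-- A subtree. -/
def tree3 : Check.Tree (Option ℕ) :=
  .leaf none

theorem chunk3 : Check.GoodSign cfg (reach cfg base [(0, false), (0, true), (3, false), (1, true), (0, true)]) :=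
  Check.checkSign_sound tree3 (by decide +kernel)

/-- A subtree. -/
def tree4 : Check.Tree (Option ℕ) :=
  .leaf none

theorem chunk4 : Check.GoodSign cfg (reach cfg base [(1, false), (0, true), (0, true), (3, false), (1, true), (0, true)]) :=
  Check.checkSign_sound tree4 (by decide +kernel)

/-- A subtree. -/
def tree5 : Check.Tree (Option ℕ) :=
  .leaf none

theorem chunk5 : Check.GoodSign cfg (reach cfg base [(1, false), (0, false), (3, false), (1, true), (0, true), (0, true), (3, false), (1, true), (0, true)]) :=
  Check.checkSign_sound tree5 (by decide +kernel)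

/-- A subtree. -/
def tree6 : Check.Tree (Option ℕ) :=
  .node 0
    (.leaf none)
    (.node 1
    (.leaf none)
    (.node 0
    (.node 1
    (.leaf none)
    (.node 0
    (.node 1
    (.leaf none)
    (.node 3
    (.node 3
    (.node 0
    (.node 1
    (.leaf none)
    (.leaf (some 3)))
    (.leaf (some 3)))
    (.node 0
    (.node 1
    (.leaf none)
    (.leaf (some 3)))
    (.leaf (some 3))))
    (.node 0
    (.node 1
    (.leaf none)
    (.node 0
    (.leaf none)
    (.node 1
    (.leaf none)
    (.leaf (some 3)))))
    (.node 1
    (.node 0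
    (.leaf none)
    (.node 1
    (.leaf none)
    (.leaf (some 3))))
    (.leaf (some 3))))))
    (.node 1
    (.node 3
    (.node 0
    (.node 3
    (.node 1
    (.leaf none)
    (.leaf (some 3)))
    (.node 1
    (.leaf none)
    (.leaf (some 3))))
    (.leaf (some 3)))
    (.node 0
    (.node 1
    (.leaf none)
    (.node 0
    (.leaf none)
    (.leaf (some 3))))
    (.node 1
    (.node 0
    (.leaf none)
    (.leaf (some 3)))
    (.leaf (some 3)))))
    (.leaf (some 3)))))
    (.node 1
    (.node 0
    (.node 1
    (.leaf none)
    (.node 3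
    (.node 0
    (.node 1
    (.leaf none)
    (.leaf (some 3)))
    (.leaf (some 3)))
    (.node 0
    (.node 1
    (.leaf none)
    (.node 0
    (.node 1
    (.leaf none)
    (.leaf (some 3)))
    (.leaf (some 3))))
    (.node 1
    (.node 0
    (.node 1
    (.leaf none)
    (.leaf (some 3)))
    (.leaf (some 3)))
    (.leaf (some 3))))))
    (.node 1
    (.node 3
    (.node 0
    (.node 1
    (.leaf none)
    (.leaf (some 3)))
    (.leaf (some 3)))
    (.node 0
    (.node 1
    (.leaf none)
    (.node 0
    (.node 1
    (.leaf none)
    (.leaf (some 3)))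
    (.leaf (some 3))))
    (.node 1
    (.node 0
    (.node 1
    (.leaf none)
    (.leaf (some 3)))
    (.leaf (some 3)))
    (.leaf (some 3)))))
    (.leaf (some 3))))
    (.leaf (some 3)))))

theorem chunk6 : Check.GoodSign cfg (reach cfg base [(3, false), (1, true), (0, false), (3, false), (1, true), (0, true), (0, true), (3, false), (1, true), (0, true)]) :=
  Check.checkSign_sound tree6 (by decide +kernel)

/-- A subtree. -/
def tree7 : Check.Tree (Option ℕ) :=
  .node 0
    (.leaf none)
    (.node 1
    (.leaf none)
    (.node 0
    (.node 1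
    (.leaf none)
    (.node 0
    (.node 1
    (.leaf none)
    (.node 0
    (.node 1
    (.leaf none)
    (.node 0
    (.leaf none)
    (.node 1
    (.leaf none)
    (.node 3
    (.node 0
    (.leaf none)
    (.node 1
    (.leaf none)
    (.node 0
    (.node 1
    (.leaf none)
    (.leaf (some 3)))
    (.leaf (some 3)))))
    (.node 0
    (.leaf none)
    (.node 1
    (.leaf none)
    (.node 0
    (.leaf none)
    (.node 1
    (.leaf none)
    (.leaf (some 1))))))))))
    (.node 1
    (.node 0
    (.leaf none)
    (.node 1
    (.leaf none)
    (.node 3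
    (.node 0
    (.node 1
    (.leaf none)
    (.node 0
    (.leaf none)
    (.node 1
    (.leaf none)
    (.leaf (some 3)))))
    (.node 1
    (.node 0
    (.leaf none)
    (.node 1
    (.leaf none)
    (.leaf (some 3))))
    (.leaf (some 3))))
    (.node 0
    (.leaf none)
    (.node 1
    (.leaf none)
    (.node 0
    (.node 1
    (.leaf none)
    (.leaf (some 1)))
    (.leaf (some 1))))))))
    (.node 0
    (.node 1
    (.node 3
    (.node 0
    (.leaf none)
    (.node 1
    (.node 0
    (.leaf none)
    (.node 1
    (.leaf none)
    (.leaf (some 3))))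
    (.leaf (some 3))))
    (.node 0
    (.leaf none)
    (.node 1
    (.leaf none)
    (.node 0
    (.node 1
    (.leaf none)
    (.node 3
    (.node 0
    (.leaf none)
    (.leaf (some 1)))
    (.leaf none)))
    (.node 3
    (.node 1
    (.node 0
    (.leaf none)
    (.leaf (some 1)))
    (.leaf (some 1)))
    (.node 1
    (.leaf none)
    (.leaf (some 1))))))))
    (.node 0
    (.node 1
    (.node 3
    (.node 0
    (.node 1
    (.leaf none)
    (.leaf (some 3)))
    (.leaf (some 3)))
    (.node 0
    (.node 1
    (.leaf none)
    (.node 3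
    (.node 0
    (.leaf none)
    (.node 3
    (.node 1
    (.leaf none)
    (.leaf (some 1)))
    (.leaf none)))
    (.leaf none)))
    (.node 3
    (.node 1
    (.node 0
    (.leaf none)
    (.leaf (some 1)))
    (.leaf (some 1)))
    (.node 1
    (.leaf none)
    (.leaf (some 1))))))
    (.leaf (some 1)))
    (.leaf (some 1))))
    (.node 1
    (.node 0
    (.node 3
    (.leaf (some 3))
    (.node 1
    (.node 0
    (.node 1
    (.leaf none)
    (.node 3
    (.node 0
    (.leaf none)
    (.leaf (some 1)))
    (.leaf none)))
    (.node 3
    (.node 1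
    (.node 0
    (.leaf none)
    (.leaf (some 1)))
    (.leaf (some 1)))
    (.node 1
    (.leaf none)
    (.leaf (some 1)))))
    (.leaf (some 1))))
    (.leaf (some 1)))
    (.leaf (some 1)))))))
    (.node 1
    (.node 0
    (.node 1
    (.leaf none)
    (.node 0
    (.leaf none)
    (.node 1
    (.leaf none)
    (.node 0
    (.node 3
    (.node 1
    (.leaf none)
    (.node 0
    (.leaf none)
    (.leaf (some 3))))
    (.node 1
    (.leaf none)
    (.node 0
    (.leaf none)
    (.node 1
    (.leaf none)
    (.node 3
    (.node 3
    (.node 0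
    (.leaf none)
    (.leaf (some 1)))
    (.leaf none))
    (.leaf none))))))
    (.node 1
    (.node 3
    (.node 0
    (.node 1
    (.leaf none)
    (.leaf (some 3)))
    (.leaf (some 3)))
    (.node 0
    (.leaf none)
    (.node 1
    (.leaf none)
    (.node 3
    (.node 3
    (.node 0
    (.leaf none)
    (.leaf (some 1)))
    (.node 0
    (.leaf none)
    (.leaf (some 1))))
    (.leaf none)))))
    (.node 3
    (.leaf (some 3))
    (.node 3
    (.node 0
    (.node 1
    (.node 3
    (.node 0
    (.leaf none)
    (.leaf (some 1)))
    (.leaf none))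
    (.leaf (some 1)))
    (.leaf (some 1)))
    (.node 0
    (.node 1
    (.leaf none)
    (.leaf (some 1)))
    (.leaf (some 1))))))))))
    (.node 1
    (.node 0
    (.leaf none)
    (.node 1
    (.leaf none)
    (.node 0
    (.node 1
    (.leaf none)
    (.node 3
    (.node 0
    (.node 1
    (.leaf none)
    (.leaf (some 3)))
    (.leaf (some 3)))
    (.node 0
    (.leaf none)
    (.node 3
    (.node 1
    (.leaf none)
    (.leaf (some 1)))
    (.node 1
    (.leaf none)
    (.leaf (some 1)))))))
    (.node 3
    (.node 1
    (.node 0
    (.node 1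
    (.leaf none)
    (.leaf (some 3)))
    (.leaf (some 3)))
    (.leaf (some 1)))
    (.node 1
    (.node 0
    (.leaf none)
    (.node 3
    (.node 1
    (.leaf none)
    (.leaf (some 1)))
    (.node 1
    (.leaf none)
    (.leaf (some 1)))))
    (.leaf (some 1)))))))
    (.node 0
    (.node 1
    (.node 0
    (.node 3
    (.node 1
    (.leaf none)
    (.node 0
    (.node 1
    (.leaf none)
    (.leaf (some 3)))
    (.leaf (some 3))))
    (.node 1
    (.leaf none)
    (.node 0
    (.leaf none)
    (.node 1
    (.leaf none)
    (.leaf (some 1))))))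
    (.node 1
    (.node 3
    (.node 0
    (.node 1
    (.leaf none)
    (.leaf (some 3)))
    (.leaf (some 3)))
    (.node 0
    (.leaf none)
    (.node 1
    (.leaf none)
    (.leaf (some 1)))))
    (.leaf (some 1))))
    (.leaf (some 1)))
    (.leaf (some 1)))))
    (.node 0
    (.node 1
    (.node 0
    (.node 1
    (.node 3
    (.node 0
    (.node 1
    (.leaf none)
    (.node 0
    (.leaf none)
    (.node 1
    (.leaf none)
    (.leaf (some 3)))))
    (.node 1
    (.node 0
    (.leaf none)
    (.node 1
    (.leaf none)
    (.leaf (some 3))))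
    (.leaf (some 3))))
    (.node 0
    (.leaf none)
    (.node 1
    (.node 0
    (.leaf none)
    (.node 1
    (.leaf none)
    (.node 3
    (.node 0
    (.leaf none)
    (.leaf (some 1)))
    (.leaf none))))
    (.node 0
    (.node 1
    (.leaf none)
    (.leaf (some 1)))
    (.leaf (some 1))))))
    (.node 0
    (.node 3
    (.leaf (some 3))
    (.node 1
    (.node 0
    (.node 1
    (.leaf none)
    (.leaf (some 1)))
    (.leaf (some 1)))
    (.leaf (some 1))))
    (.leaf (some 1))))
    (.node 1
    (.node 0
    (.node 3
    (.leaf (some 3))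
    (.node 1
    (.node 3
    (.node 0
    (.node 1
    (.node 0
    (.leaf none)
    (.leaf (some 1)))
    (.leaf (some 1)))
    (.leaf (some 1)))
    (.node 0
    (.node 1
    (.leaf none)
    (.leaf (some 1)))
    (.leaf (some 1))))
    (.leaf (some 1))))
    (.leaf (some 1)))
    (.leaf (some 1))))
    (.leaf (some 1)))
    (.leaf (some 1))))))
    (.node 1
    (.node 0
    (.node 1
    (.leaf none)
    (.node 0
    (.node 1
    (.leaf none)
    (.node 0
    (.leaf none)
    (.node 1
    (.node 3
    (.node 0
    (.leaf none)
    (.node 1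
    (.leaf none)
    (.node 0
    (.leaf none)
    (.node 1
    (.leaf none)
    (.leaf (some 3))))))
    (.leaf none))
    (.node 3
    (.node 0
    (.node 1
    (.node 0
    (.leaf none)
    (.node 1
    (.leaf none)
    (.leaf (some 3))))
    (.leaf (some 3)))
    (.leaf (some 3)))
    (.node 0
    (.node 1
    (.leaf none)
    (.node 3
    (.node 0
    (.node 1
    (.leaf none)
    (.leaf (some 1)))
    (.leaf (some 1)))
    (.node 0
    (.leaf none)
    (.leaf (some 1)))))
    (.node 1
    (.node 3
    (.node 0
    (.node 1
    (.leaf none)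
    (.leaf (some 1)))
    (.leaf (some 1)))
    (.node 0
    (.leaf none)
    (.leaf (some 1))))
    (.leaf (some 1))))))))
    (.node 1
    (.node 0
    (.node 1
    (.leaf none)
    (.node 3
    (.node 0
    (.leaf none)
    (.node 1
    (.leaf none)
    (.node 0
    (.leaf none)
    (.node 1
    (.leaf none)
    (.leaf (some 3))))))
    (.leaf none)))
    (.node 1
    (.node 3
    (.node 0
    (.leaf none)
    (.node 1
    (.leaf none)
    (.node 0
    (.leaf none)
    (.node 1
    (.leaf none)
    (.leaf (some 1))))))
    (.leaf none))
    (.node 3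
    (.node 0
    (.node 1
    (.node 0
    (.leaf none)
    (.node 1
    (.leaf none)
    (.leaf (some 1))))
    (.leaf (some 1)))
    (.leaf (some 1)))
    (.node 0
    (.node 1
    (.leaf none)
    (.leaf (some 1)))
    (.leaf (some 1))))))
    (.node 0
    (.node 1
    (.node 3
    (.node 0
    (.node 1
    (.node 0
    (.leaf none)
    (.node 1
    (.leaf none)
    (.leaf (some 3))))
    (.leaf (some 3)))
    (.leaf (some 3)))
    (.node 0
    (.node 1
    (.leaf none)
    (.node 3
    (.node 0
    (.node 1
    (.leaf none)
    (.leaf (some 1)))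
    (.leaf (some 1)))
    (.node 0
    (.leaf none)
    (.leaf (some 1)))))
    (.node 1
    (.node 3
    (.node 0
    (.node 1
    (.leaf none)
    (.leaf (some 1)))
    (.leaf (some 1)))
    (.node 0
    (.leaf none)
    (.leaf (some 1))))
    (.leaf (some 1)))))
    (.leaf (some 1)))
    (.leaf (some 1))))))
    (.node 1
    (.node 0
    (.node 1
    (.leaf none)
    (.node 0
    (.node 1
    (.leaf none)
    (.node 3
    (.node 0
    (.leaf none)
    (.node 1
    (.leaf none)
    (.node 0
    (.leaf none)
    (.leaf (some 3)))))
    (.leaf none)))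
    (.node 1
    (.node 3
    (.node 0
    (.leaf none)
    (.node 1
    (.leaf none)
    (.node 0
    (.leaf none)
    (.leaf (some 1)))))
    (.node 0
    (.leaf none)
    (.node 1
    (.leaf none)
    (.node 3
    (.node 0
    (.leaf none)
    (.leaf (some 1)))
    (.leaf none)))))
    (.node 3
    (.node 0
    (.node 1
    (.node 0
    (.leaf none)
    (.leaf (some 3)))
    (.leaf (some 1)))
    (.leaf (some 1)))
    (.node 0
    (.node 1
    (.node 0
    (.leaf none)
    (.node 3
    (.node 1
    (.leaf none)
    (.leaf (some 1)))
    (.leaf none)))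
    (.leaf (some 1)))
    (.leaf (some 1)))))))
    (.node 1
    (.node 0
    (.node 1
    (.leaf none)
    (.node 3
    (.node 0
    (.leaf none)
    (.node 1
    (.leaf none)
    (.node 0
    (.leaf none)
    (.leaf (some 1)))))
    (.node 0
    (.leaf none)
    (.node 1
    (.leaf none)
    (.node 3
    (.node 0
    (.leaf none)
    (.leaf (some 1)))
    (.leaf none))))))
    (.node 1
    (.node 3
    (.node 0
    (.leaf none)
    (.node 1
    (.leaf none)
    (.node 0
    (.node 1
    (.leaf none)
    (.leaf (some 1)))
    (.leaf (some 1)))))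
    (.node 0
    (.leaf none)
    (.node 1
    (.leaf none)
    (.node 3
    (.node 0
    (.leaf none)
    (.leaf (some 1)))
    (.leaf none)))))
    (.node 3
    (.node 0
    (.node 1
    (.node 0
    (.node 1
    (.leaf none)
    (.leaf (some 1)))
    (.leaf (some 1)))
    (.leaf (some 1)))
    (.leaf (some 1)))
    (.node 0
    (.node 1
    (.node 3
    (.node 0
    (.leaf none)
    (.leaf (some 1)))
    (.leaf none))
    (.leaf (some 1)))
    (.leaf (some 1))))))
    (.node 0
    (.node 1
    (.node 3
    (.node 0
    (.node 1
    (.node 0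
    (.leaf none)
    (.leaf (some 1)))
    (.leaf (some 1)))
    (.leaf (some 1)))
    (.node 0
    (.node 1
    (.node 3
    (.node 0
    (.leaf none)
    (.leaf (some 1)))
    (.leaf none))
    (.leaf (some 1)))
    (.leaf (some 1))))
    (.leaf (some 1)))
    (.leaf (some 1)))))
    (.node 0
    (.node 1
    (.node 0
    (.node 1
    (.node 3
    (.node 0
    (.node 1
    (.node 0
    (.leaf none)
    (.node 1
    (.leaf none)
    (.leaf (some 1))))
    (.leaf (some 1)))
    (.leaf (some 1)))
    (.node 0
    (.node 1
    (.leaf none)
    (.leaf (some 1)))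
    (.leaf (some 1))))
    (.leaf (some 1)))
    (.leaf (some 1)))
    (.leaf (some 1)))
    (.leaf (some 1)))))
    (.node 0
    (.node 1
    (.node 0
    (.node 1
    (.node 0
    (.node 1
    (.node 3
    (.node 0
    (.node 1
    (.leaf none)
    (.node 0
    (.node 1
    (.leaf none)
    (.leaf (some 3)))
    (.leaf (some 3))))
    (.leaf (some 3)))
    (.node 0
    (.node 1
    (.leaf none)
    (.node 0
    (.leaf none)
    (.node 3
    (.node 1
    (.node 3
    (.node 0
    (.leaf none)
    (.leaf (some 1)))
    (.leaf none))
    (.leaf (some 1)))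
    (.node 1
    (.leaf none)
    (.leaf (some 1))))))
    (.node 1
    (.node 0
    (.node 1
    (.leaf none)
    (.leaf (some 1)))
    (.leaf (some 1)))
    (.leaf (some 1)))))
    (.leaf (some 1)))
    (.leaf (some 1)))
    (.leaf (some 1)))
    (.leaf (some 1)))
    (.leaf (some 1)))
    (.leaf (some 1))))))

theorem chunk7 : Check.GoodSign cfg (reach cfg base [(3, true), (1, true), (0, false), (3, false), (1, true), (0, true), (0, true), (3, false), (1, true), (0, true)]) :=
  Check.checkSign_sound tree7 (by decide +kernel)

/-- A subtree. -/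
def tree8 : Check.Tree (Option ℕ) :=
  .node 1
    (.node 3
    (.node 0
    (.node 1
    (.leaf none)
    (.node 0
    (.leaf none)
    (.node 1
    (.leaf none)
    (.node 3
    (.node 0
    (.leaf none)
    (.node 1
    (.leaf none)
    (.node 1
    (.leaf none)
    (.node 0
    (.leaf none)
    (.node 3
    (.node 0
    (.leaf none)
    (.leaf (some 3)))
    (.leaf none))))))
    (.leaf none)))))
    (.node 1
    (.node 0
    (.leaf none)
    (.node 1
    (.leaf none)
    (.node 3
    (.node 1
    (.leaf none)
    (.node 0
    (.leaf none)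
    (.node 1
    (.leaf none)
    (.node 0
    (.leaf none)
    (.leaf (some 1))))))
    (.leaf none))))
    (.node 1
    (.node 0
    (.node 3
    (.node 1
    (.leaf none)
    (.node 0
    (.leaf none)
    (.node 1
    (.leaf none)
    (.node 0
    (.leaf none)
    (.node 3
    (.node 3
    (.node 1
    (.node 0
    (.leaf none)
    (.leaf (some 3)))
    (.leaf (some 3)))
    (.leaf none))
    (.leaf none))))))
    (.leaf none))
    (.node 1
    (.node 0
    (.node 3
    (.node 1
    (.leaf none)
    (.node 0
    (.leaf none)
    (.node 3
    (.node 3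
    (.node 1
    (.node 0
    (.leaf none)
    (.leaf (some 1)))
    (.leaf (some 1)))
    (.leaf none))
    (.leaf none))))
    (.leaf none))
    (.node 3
    (.node 1
    (.node 0
    (.node 3
    (.node 3
    (.node 1
    (.node 0
    (.leaf none)
    (.leaf (some 1)))
    (.leaf (some 1)))
    (.leaf none))
    (.leaf none))
    (.leaf (some 1)))
    (.leaf (some 1)))
    (.node 1
    (.node 0
    (.leaf none)
    (.leaf (some 1)))
    (.leaf (some 1)))))
    (.node 0
    (.node 3
    (.node 1
    (.node 0
    (.node 3
    (.node 3
    (.node 1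
    (.node 0
    (.leaf none)
    (.leaf (some 1)))
    (.leaf (some 1)))
    (.leaf none))
    (.leaf none))
    (.leaf (some 1)))
    (.leaf (some 1)))
    (.node 1
    (.node 0
    (.leaf none)
    (.leaf (some 1)))
    (.leaf (some 1))))
    (.leaf (some 1)))))
    (.node 0
    (.node 1
    (.node 0
    (.node 3
    (.node 1
    (.leaf none)
    (.node 0
    (.leaf none)
    (.node 3
    (.node 0
    (.leaf none)
    (.leaf (some 3)))
    (.leaf none))))
    (.leaf none))
    (.node 3
    (.node 1
    (.node 0
    (.node 3
    (.node 1
    (.node 0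
    (.leaf none)
    (.leaf (some 3)))
    (.leaf (some 3)))
    (.leaf none))
    (.leaf (some 1)))
    (.leaf (some 1)))
    (.node 1
    (.node 0
    (.leaf none)
    (.leaf (some 1)))
    (.leaf (some 1)))))
    (.node 0
    (.node 3
    (.node 1
    (.node 0
    (.node 3
    (.node 0
    (.leaf none)
    (.leaf (some 3)))
    (.leaf none))
    (.leaf (some 1)))
    (.leaf (some 3)))
    (.node 1
    (.node 0
    (.leaf none)
    (.leaf (some 1)))
    (.node 0
    (.node 1
    (.node 0
    (.leaf none)
    (.leaf (some 1)))
    (.leaf (some 1)))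
    (.leaf (some 1)))))
    (.leaf (some 1))))
    (.leaf (some 1))))))
    (.node 0
    (.leaf none)
    (.node 1
    (.leaf none)
    (.node 1
    (.node 0
    (.leaf none)
    (.node 1
    (.node 0
    (.leaf none)
    (.node 1
    (.leaf none)
    (.leaf (some 1))))
    (.node 0
    (.node 1
    (.node 0
    (.leaf none)
    (.leaf (some 1)))
    (.leaf (some 1)))
    (.leaf (some 1)))))
    (.node 0
    (.node 1
    (.node 0
    (.leaf none)
    (.node 1
    (.node 0
    (.leaf none)
    (.leaf (some 1)))
    (.leaf (some 1))))
    (.node 0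
    (.node 1
    (.node 0
    (.leaf none)
    (.leaf (some 1)))
    (.node 0
    (.node 1
    (.node 0
    (.leaf none)
    (.leaf (some 1)))
    (.leaf (some 1)))
    (.leaf (some 1))))
    (.leaf (some 1))))
    (.leaf (some 1)))))))
    (.node 1
    (.node 0
    (.node 3
    (.node 0
    (.node 1
    (.node 3
    (.node 3
    (.node 1
    (.leaf none)
    (.node 0
    (.leaf none)
    (.node 1
    (.leaf none)
    (.node 0
    (.leaf none)
    (.node 3
    (.leaf (some 3))
    (.leaf none))))))
    (.leaf none))
    (.leaf none))
    (.node 0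
    (.node 1
    (.node 3
    (.node 3
    (.node 0
    (.leaf none)
    (.node 1
    (.leaf none)
    (.node 3
    (.leaf (some 3))
    (.leaf none))))
    (.leaf none))
    (.leaf none))
    (.node 3
    (.node 0
    (.node 1
    (.leaf none)
    (.leaf (some 3)))
    (.leaf (some 3)))
    (.node 0
    (.node 1
    (.leaf none)
    (.node 0
    (.node 1
    (.leaf none)
    (.leaf (some 3)))
    (.leaf (some 3))))
    (.node 1
    (.node 0
    (.node 1
    (.leaf none)
    (.leaf (some 3)))
    (.leaf (some 3)))
    (.leaf (some 1))))))
    (.node 1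
    (.node 3
    (.node 0
    (.node 1
    (.node 3
    (.node 3
    (.leaf (some 3))
    (.leaf none))
    (.leaf none))
    (.leaf (some 3)))
    (.leaf (some 3)))
    (.node 0
    (.node 1
    (.leaf none)
    (.node 0
    (.node 1
    (.leaf none)
    (.leaf (some 3)))
    (.leaf (some 3))))
    (.node 1
    (.node 0
    (.node 1
    (.leaf none)
    (.leaf (some 3)))
    (.leaf (some 3)))
    (.leaf (some 1)))))
    (.leaf (some 1)))))
    (.node 1
    (.node 1
    (.node 0
    (.node 3
    (.node 3
    (.node 1
    (.leaf none)
    (.node 0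
    (.leaf none)
    (.node 0
    (.leaf none)
    (.leaf (some 3)))))
    (.leaf none))
    (.leaf none))
    (.node 3
    (.node 1
    (.node 0
    (.node 3
    (.node 0
    (.leaf none)
    (.leaf (some 3)))
    (.leaf none))
    (.leaf (some 3)))
    (.leaf (some 3)))
    (.node 1
    (.node 0
    (.leaf none)
    (.node 1
    (.node 0
    (.leaf none)
    (.leaf (some 1)))
    (.leaf (some 1))))
    (.node 0
    (.node 1
    (.node 0
    (.leaf none)
    (.leaf (some 1)))
    (.leaf (some 1)))
    (.leaf (some 1))))))
    (.node 0
    (.node 3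
    (.node 1
    (.node 0
    (.node 3
    (.node 3
    (.leaf (some 3))
    (.leaf none))
    (.leaf none))
    (.leaf (some 3)))
    (.leaf (some 3)))
    (.node 0
    (.node 1
    (.leaf none)
    (.node 0
    (.node 1
    (.leaf none)
    (.leaf (some 3)))
    (.leaf (some 1))))
    (.node 1
    (.node 1
    (.node 0
    (.leaf none)
    (.leaf (some 1)))
    (.leaf (some 1)))
    (.leaf (some 1)))))
    (.leaf (some 1))))
    (.leaf (some 1))))
    (.node 0
    (.node 1
    (.leaf none)
    (.node 0
    (.node 1
    (.leaf none)
    (.node 0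
    (.node 1
    (.leaf none)
    (.node 0
    (.node 1
    (.leaf none)
    (.node 3
    (.node 0
    (.leaf none)
    (.node 1
    (.leaf none)
    (.leaf (some 1))))
    (.node 0
    (.leaf none)
    (.node 1
    (.leaf none)
    (.leaf (some 1))))))
    (.node 1
    (.node 3
    (.node 0
    (.leaf none)
    (.node 1
    (.leaf none)
    (.leaf (some 1))))
    (.node 0
    (.leaf none)
    (.node 1
    (.leaf none)
    (.leaf (some 1)))))
    (.leaf (some 1)))))
    (.node 1
    (.node 0
    (.node 1
    (.leaf none)
    (.node 3
    (.node 0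
    (.leaf none)
    (.node 1
    (.leaf none)
    (.leaf (some 1))))
    (.node 0
    (.leaf none)
    (.node 1
    (.leaf none)
    (.leaf (some 1))))))
    (.node 1
    (.node 3
    (.node 0
    (.leaf none)
    (.node 1
    (.leaf none)
    (.leaf (some 1))))
    (.node 0
    (.leaf none)
    (.node 1
    (.leaf none)
    (.leaf (some 1)))))
    (.leaf (some 1))))
    (.leaf (some 1)))))
    (.node 1
    (.node 0
    (.node 1
    (.leaf none)
    (.node 0
    (.node 1
    (.leaf none)
    (.node 3
    (.node 0
    (.leaf none)
    (.leaf (some 1)))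
    (.node 0
    (.leaf none)
    (.leaf (some 1)))))
    (.node 1
    (.node 3
    (.node 0
    (.leaf none)
    (.leaf (some 1)))
    (.node 0
    (.leaf none)
    (.leaf (some 1))))
    (.leaf (some 1)))))
    (.node 1
    (.node 0
    (.node 1
    (.leaf none)
    (.node 3
    (.node 0
    (.leaf none)
    (.leaf (some 1)))
    (.node 0
    (.leaf none)
    (.leaf (some 1)))))
    (.node 1
    (.node 3
    (.node 0
    (.leaf none)
    (.leaf (some 1)))
    (.node 0
    (.leaf none)
    (.leaf (some 1))))
    (.leaf (some 1))))
    (.leaf (some 1))))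
    (.leaf (some 1)))))
    (.node 1
    (.node 0
    (.node 1
    (.leaf none)
    (.node 0
    (.node 1
    (.leaf none)
    (.node 0
    (.node 1
    (.leaf none)
    (.node 3
    (.node 0
    (.leaf none)
    (.leaf (some 1)))
    (.node 0
    (.leaf none)
    (.leaf (some 1)))))
    (.leaf (some 1))))
    (.node 1
    (.node 0
    (.node 1
    (.leaf none)
    (.leaf (some 1)))
    (.leaf (some 1)))
    (.leaf (some 1)))))
    (.node 1
    (.node 1
    (.node 0
    (.leaf none)
    (.node 1
    (.node 0
    (.leaf none)
    (.leaf (some 1)))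
    (.leaf (some 1))))
    (.node 0
    (.node 1
    (.node 0
    (.leaf none)
    (.leaf (some 1)))
    (.leaf (some 1)))
    (.leaf (some 1))))
    (.leaf (some 1))))
    (.leaf (some 1)))))
    (.leaf (some 1)))
    (.leaf (some 1)))

theorem chunk8 : Check.GoodSign cfg (reach cfg base [(0, true), (3, false), (1, true), (0, true), (0, true), (3, false), (1, true), (0, true)]) :=
  Check.checkSign_sound tree8 (by decide +kernel)

/-- A subtree. -/
def tree9 : Check.Tree (Option ℕ) :=
  .node 0
    (.node 1
    (.leaf none)
    (.node 0
    (.leaf none)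
    (.node 1
    (.leaf none)
    (.node 0
    (.node 1
    (.leaf none)
    (.node 0
    (.node 1
    (.leaf none)
    (.node 0
    (.leaf none)
    (.node 1
    (.node 3
    (.node 0
    (.leaf none)
    (.node 1
    (.leaf none)
    (.node 0
    (.leaf none)
    (.node 1
    (.leaf none)
    (.node 3
    (.node 0
    (.leaf none)
    (.leaf (some 1)))
    (.leaf none))))))
    (.leaf none))
    (.node 3
    (.node 0
    (.node 1
    (.node 0
    (.leaf none)
    (.node 1
    (.leaf none)
    (.node 3
    (.node 0
    (.leaf none)
    (.node 1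
    (.leaf none)
    (.leaf (some 1))))
    (.leaf none))))
    (.node 3
    (.node 0
    (.node 1
    (.leaf none)
    (.leaf (some 1)))
    (.leaf (some 1)))
    (.node 0
    (.leaf none)
    (.leaf (some 1)))))
    (.node 1
    (.node 3
    (.node 0
    (.node 1
    (.node 0
    (.leaf none)
    (.node 1
    (.leaf none)
    (.leaf (some 1))))
    (.leaf (some 1)))
    (.leaf (some 1)))
    (.node 0
    (.node 1
    (.leaf none)
    (.leaf (some 1)))
    (.leaf (some 1))))
    (.leaf (some 1))))
    (.node 0
    (.leaf none)
    (.node 3
    (.node 1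
    (.leaf none)
    (.leaf (some 1)))
    (.leaf none)))))))
    (.node 1
    (.node 0
    (.node 1
    (.leaf none)
    (.node 3
    (.node 0
    (.leaf none)
    (.node 1
    (.leaf none)
    (.node 0
    (.leaf none)
    (.node 1
    (.leaf none)
    (.node 3
    (.node 0
    (.leaf none)
    (.leaf (some 1)))
    (.leaf none))))))
    (.leaf none)))
    (.node 1
    (.node 3
    (.node 0
    (.leaf none)
    (.node 1
    (.leaf none)
    (.node 0
    (.leaf none)
    (.node 3
    (.node 1
    (.leaf none)
    (.leaf (some 1)))
    (.leaf none)))))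
    (.leaf none))
    (.node 3
    (.node 0
    (.node 1
    (.node 0
    (.leaf none)
    (.node 1
    (.leaf none)
    (.leaf (some 1))))
    (.leaf (some 1)))
    (.leaf (some 1)))
    (.node 0
    (.node 1
    (.leaf none)
    (.leaf (some 1)))
    (.leaf (some 1))))))
    (.node 3
    (.node 0
    (.node 1
    (.node 0
    (.node 1
    (.node 0
    (.leaf none)
    (.node 1
    (.leaf none)
    (.node 3
    (.node 0
    (.leaf none)
    (.leaf (some 1)))
    (.leaf none))))
    (.node 3
    (.node 0
    (.node 1
    (.node 0
    (.leaf none)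
    (.leaf (some 1)))
    (.leaf (some 1)))
    (.leaf (some 1)))
    (.node 0
    (.node 1
    (.leaf none)
    (.leaf (some 1)))
    (.leaf (some 1)))))
    (.node 1
    (.node 3
    (.node 0
    (.node 1
    (.node 0
    (.leaf none)
    (.leaf (some 1)))
    (.leaf (some 1)))
    (.leaf (some 1)))
    (.node 0
    (.node 1
    (.leaf none)
    (.leaf (some 1)))
    (.leaf (some 1))))
    (.leaf (some 1))))
    (.leaf (some 1)))
    (.leaf (some 1)))
    (.node 0
    (.node 1
    (.node 0
    (.node 1
    (.leaf none)
    (.node 3
    (.node 0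
    (.leaf none)
    (.leaf (some 1)))
    (.leaf none)))
    (.node 3
    (.node 1
    (.node 0
    (.leaf none)
    (.leaf (some 1)))
    (.leaf (some 1)))
    (.node 1
    (.leaf none)
    (.leaf (some 1)))))
    (.leaf (some 1)))
    (.leaf (some 1)))))))
    (.node 1
    (.node 0
    (.node 1
    (.leaf none)
    (.node 0
    (.node 1
    (.leaf none)
    (.node 3
    (.node 0
    (.leaf none)
    (.node 1
    (.leaf none)
    (.node 0
    (.node 1
    (.leaf none)
    (.node 3
    (.node 0
    (.leaf none)
    (.leaf (some 1)))
    (.leaf none)))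
    (.node 3
    (.node 1
    (.node 0
    (.leaf none)
    (.leaf (some 1)))
    (.leaf (some 1)))
    (.node 1
    (.leaf none)
    (.leaf (some 1)))))))
    (.leaf none)))
    (.node 1
    (.node 3
    (.node 0
    (.leaf none)
    (.node 1
    (.leaf none)
    (.node 3
    (.node 0
    (.node 1
    (.leaf none)
    (.leaf (some 1)))
    (.leaf (some 1)))
    (.node 0
    (.leaf none)
    (.leaf (some 1))))))
    (.leaf none))
    (.node 3
    (.node 0
    (.node 1
    (.node 0
    (.node 1
    (.leaf none)
    (.node 3
    (.node 0
    (.leaf none)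
    (.leaf (some 1)))
    (.leaf none)))
    (.node 3
    (.node 1
    (.node 0
    (.leaf none)
    (.leaf (some 1)))
    (.leaf (some 1)))
    (.node 1
    (.leaf none)
    (.leaf (some 1)))))
    (.leaf (some 1)))
    (.leaf (some 1)))
    (.node 0
    (.node 1
    (.leaf none)
    (.leaf (some 1)))
    (.leaf (some 1)))))))
    (.node 1
    (.node 0
    (.node 1
    (.leaf none)
    (.node 3
    (.node 0
    (.leaf none)
    (.node 1
    (.leaf none)
    (.node 3
    (.node 0
    (.node 1
    (.leaf none)
    (.leaf (some 1)))
    (.leaf (some 1)))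
    (.node 0
    (.leaf none)
    (.leaf (some 1))))))
    (.leaf none)))
    (.node 3
    (.node 1
    (.node 0
    (.leaf none)
    (.node 1
    (.leaf none)
    (.node 3
    (.node 0
    (.node 1
    (.leaf none)
    (.leaf (some 1)))
    (.leaf (some 1)))
    (.node 0
    (.leaf none)
    (.leaf (some 1))))))
    (.node 0
    (.node 1
    (.node 3
    (.node 0
    (.node 1
    (.leaf none)
    (.leaf (some 1)))
    (.leaf (some 1)))
    (.node 0
    (.leaf none)
    (.leaf (some 1))))
    (.leaf (some 1)))
    (.leaf (some 1))))
    (.node 1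
    (.leaf none)
    (.node 3
    (.node 0
    (.node 1
    (.leaf none)
    (.leaf (some 1)))
    (.leaf (some 1)))
    (.node 0
    (.leaf none)
    (.leaf (some 1)))))))
    (.node 3
    (.node 0
    (.node 1
    (.node 0
    (.node 1
    (.node 3
    (.node 0
    (.node 1
    (.leaf none)
    (.leaf (some 1)))
    (.leaf (some 1)))
    (.node 0
    (.leaf none)
    (.leaf (some 1))))
    (.leaf (some 1)))
    (.leaf (some 1)))
    (.leaf (some 1)))
    (.leaf (some 1)))
    (.node 0
    (.node 1
    (.node 3
    (.node 0
    (.node 1
    (.leaf none)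
    (.leaf (some 1)))
    (.leaf (some 1)))
    (.node 0
    (.leaf none)
    (.leaf (some 1))))
    (.leaf (some 1)))
    (.leaf (some 1))))))
    (.node 0
    (.node 1
    (.node 3
    (.node 0
    (.node 1
    (.node 0
    (.node 1
    (.node 0
    (.leaf none)
    (.node 3
    (.node 1
    (.leaf none)
    (.leaf (some 1)))
    (.leaf none)))
    (.leaf (some 1)))
    (.leaf (some 1)))
    (.leaf (some 1)))
    (.leaf (some 1)))
    (.node 0
    (.node 1
    (.node 0
    (.node 1
    (.leaf none)
    (.leaf (some 1)))
    (.leaf (some 1)))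
    (.leaf (some 1)))
    (.leaf (some 1))))
    (.leaf (some 1)))
    (.leaf (some 1))))))))
    (.node 1
    (.node 0
    (.leaf none)
    (.node 1
    (.leaf none)
    (.node 0
    (.node 1
    (.leaf none)
    (.node 1
    (.node 0
    (.leaf none)
    (.node 3
    (.node 1
    (.node 0
    (.leaf none)
    (.leaf (some 1)))
    (.leaf (some 1)))
    (.node 0
    (.leaf none)
    (.leaf (some 1)))))
    (.node 0
    (.node 3
    (.node 1
    (.node 0
    (.leaf none)
    (.leaf (some 1)))
    (.node 0
    (.node 1
    (.leaf none)
    (.leaf (some 1)))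
    (.leaf (some 1))))
    (.node 0
    (.leaf none)
    (.leaf (some 1))))
    (.leaf (some 1)))))
    (.node 1
    (.node 1
    (.node 0
    (.leaf none)
    (.node 3
    (.node 1
    (.leaf none)
    (.leaf (some 1)))
    (.leaf none)))
    (.node 0
    (.node 3
    (.node 1
    (.leaf none)
    (.leaf (some 1)))
    (.node 1
    (.leaf none)
    (.leaf (some 1))))
    (.leaf (some 1))))
    (.leaf (some 1))))))
    (.node 0
    (.node 1
    (.node 0
    (.node 1
    (.leaf none)
    (.node 0
    (.node 1
    (.leaf none)
    (.node 0
    (.node 1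
    (.leaf none)
    (.node 3
    (.node 0
    (.leaf none)
    (.node 1
    (.leaf none)
    (.leaf (some 1))))
    (.leaf none)))
    (.node 3
    (.node 1
    (.node 0
    (.leaf none)
    (.node 1
    (.leaf none)
    (.leaf (some 1))))
    (.leaf (some 1)))
    (.node 1
    (.leaf none)
    (.leaf (some 1))))))
    (.node 1
    (.node 0
    (.node 1
    (.leaf none)
    (.node 3
    (.node 0
    (.leaf none)
    (.node 1
    (.leaf none)
    (.leaf (some 1))))
    (.leaf none)))
    (.node 3
    (.node 1
    (.node 0
    (.leaf none)
    (.node 1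
    (.leaf none)
    (.leaf (some 1))))
    (.leaf (some 1)))
    (.node 1
    (.leaf none)
    (.leaf (some 1)))))
    (.leaf (some 1)))))
    (.node 1
    (.node 0
    (.node 1
    (.leaf none)
    (.node 0
    (.node 1
    (.leaf none)
    (.node 3
    (.node 0
    (.leaf none)
    (.leaf (some 1)))
    (.leaf none)))
    (.node 3
    (.node 1
    (.node 0
    (.leaf none)
    (.leaf (some 1)))
    (.leaf (some 1)))
    (.node 1
    (.leaf none)
    (.leaf (some 1))))))
    (.node 1
    (.node 3
    (.node 0
    (.node 1
    (.leaf none)
    (.node 0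
    (.leaf none)
    (.leaf (some 1))))
    (.node 1
    (.node 0
    (.leaf none)
    (.leaf (some 1)))
    (.leaf (some 1))))
    (.node 0
    (.leaf none)
    (.node 1
    (.leaf none)
    (.leaf (some 1)))))
    (.leaf (some 1))))
    (.leaf (some 1))))
    (.leaf (some 1)))
    (.leaf (some 1))))

theorem chunk9 : Check.GoodSign cfg (reach cfg base [(3, true), (1, true), (0, true), (0, true), (3, false), (1, true), (0, true)]) :=
  Check.checkSign_sound tree9 (by decide +kernel)

/-- A subtree. -/
def tree10 : Check.Tree (Option ℕ) :=
  .node 0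
    (.leaf none)
    (.node 0
    (.leaf none)
    (.node 1
    (.leaf none)
    (.node 0
    (.node 1
    (.leaf none)
    (.node 0
    (.leaf none)
    (.node 1
    (.leaf none)
    (.node 3
    (.node 0
    (.node 1
    (.leaf none)
    (.node 0
    (.leaf none)
    (.node 1
    (.leaf none)
    (.node 3
    (.node 0
    (.node 1
    (.leaf none)
    (.leaf (some 1)))
    (.leaf (some 1)))
    (.leaf none)))))
    (.node 1
    (.node 0
    (.leaf none)
    (.node 1
    (.leaf none)
    (.node 3
    (.node 0
    (.node 1
    (.leaf none)
    (.leaf (some 1)))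
    (.leaf (some 1)))
    (.leaf none))))
    (.node 3
    (.node 0
    (.node 1
    (.node 0
    (.node 1
    (.leaf none)
    (.leaf (some 1)))
    (.leaf (some 1)))
    (.leaf (some 1)))
    (.leaf (some 1)))
    (.node 0
    (.node 1
    (.leaf none)
    (.leaf (some 1)))
    (.leaf (some 1))))))
    (.leaf none)))))
    (.node 1
    (.node 0
    (.leaf none)
    (.node 1
    (.leaf none)
    (.node 3
    (.node 0
    (.node 1
    (.leaf none)
    (.node 0
    (.leaf none)
    (.node 1
    (.leaf none)
    (.leaf (some 1)))))
    (.node 1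
    (.node 0
    (.leaf none)
    (.node 1
    (.leaf none)
    (.leaf (some 1))))
    (.leaf (some 1))))
    (.leaf none))))
    (.node 0
    (.node 1
    (.node 3
    (.node 0
    (.node 1
    (.leaf none)
    (.node 0
    (.leaf none)
    (.node 1
    (.leaf none)
    (.leaf (some 1)))))
    (.node 1
    (.node 0
    (.leaf none)
    (.node 1
    (.leaf none)
    (.leaf (some 1))))
    (.leaf (some 1))))
    (.leaf none))
    (.leaf (some 1)))
    (.leaf (some 1)))))))

theorem chunk10 : Check.GoodSign cfg (reach cfg base [(3, true), (1, true), (0, true)]) :=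
  Check.checkSign_sound tree10 (by decide +kernel)

end Vale.Agent.P211.Cert.Pair.HessOuterL
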